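import Vale.Agent.P181.O2.H556.Low2

set_option autoImplicit false

/-!
# P181, O2, B2: the lower bound of the product model
-/

open MvPolynomial

namespace Vale.Agent.P181.O2.H556

open Vale.Agent.P181.T4 (HW mem_HW)
open Vale.Agent.P181.SZ (tl)
open Vale.Agent.P181.SZR5 (ren)
open Vale.Agent.P181.O2
open Vale.Agent.P181.O2.H43 (mem_PL exists_equiv transL cc_filter)

instance fd_PL (n : ℕ) (σ : Type) [Fintype σ] (l : σ → ℕ × ℕ) (tau : Fin n → ℕ) :
    FiniteDimensional ℂ (PL n σ l tau) :=
  Submodule.finiteDimensional_of_le (S₂ := HW n σ tau) (fun _ hf => hf.1)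

instance fd_PG (m : ℕ) (σ : Type) [Fintype σ] (d : σ → ℕ) (a : ℕ) (mu : Fin m → ℕ) :
    FiniteDimensional ℂ (PG m σ d a mu) :=
  Submodule.finiteDimensional_of_le (S₂ := HW m (Option (Option σ)) mu) (fun _ hf => hf.1)

lemma map_get {α : Type} (k : Multiset α) :
    (Finset.univ : Finset (Fin k.toList.length)).val.map (fun j => k.toList.get j) = k := by
  rw [Fin.univ_val_map, List.ofFn_get, Multiset.coe_toList]

lemma map_equiv {α β γ : Type} [Fintype α] [Fintype β] (e : α ≃ β) (f : β → γ) :
    (Finset.univ : Finset α).val.map (fun x => f (e x)) = (Finset.univ : Finset β).val.map f := by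
  rw [← Multiset.map_univ_val_equiv e, Multiset.map_map]
  rfl

/-- The labels can be put on the columns of given sizes. -/
lemma exists_lab (k : Multiset ℕ) (U : Multiset (ℕ × ℕ)) (h : szs U = k) :
    ∃ c : Fin k.toList.length → ℕ × ℕ, (∀ j, (c j).1 + (c j).2 = k.toList.get j) ∧
      (Finset.univ : Finset (Fin k.toList.length)).val.map c = U := by
  obtain ⟨e, he⟩ := exists_equiv
    (fun j : Fin U.toList.length => (U.toList.get j).1 + (U.toList.get j).2)
    (fun j : Fin k.toList.length => k.toList.get j) (by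
      rw [map_get k, ← h]
      conv_rhs => rw [szs, ← map_get U, Multiset.map_map]
      rfl)
  refine ⟨fun j => U.toList.get (e.symm j), fun j => ?_, ?_⟩
  · rw [← he, Equiv.apply_symm_apply]
  · rw [map_equiv e.symm (fun j => U.toList.get j), map_get]

lemma finrank_lab (n L N : ℕ) (tau : Fin n → ℕ) (c : Fin L → ℕ × ℕ) (U : Multiset (ℕ × ℕ))
    (hc : (Finset.univ : Finset (Fin L)).val.map c = U) (hN : (U.map Prod.fst).sum = N) :
    Module.finrank ℂ (PL n (Option (Fin L)) (fun x => Option.elim x (N + 1, 2) c) tau) =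
      cc2 n tau U := by
  rw [transL, ← cc_filter, cc2, hN]
  congr 1
  rw [← hc]
  have h1 : ∀ {ρ : Type} [Fintype ρ] (g : ρ → ℕ × ℕ), (Finset.univ : Finset ρ).val.map g =
      ∑ j, ({g j} : Multiset (ℕ × ℕ)) := by
    intro ρ _ g
    rw [Finset.sum, ← Multiset.sum_map_singleton ((Finset.univ : Finset ρ).val.map g),
      Multiset.map_map]
    rfl
  rw [h1, h1, Fintype.sum_option]
  rfl

/-- One type. -/
lemma T_mem {n L a N : ℕ} {mu : Fin (n + 1) → ℕ} {d : Fin L → ℕ} {c : Fin L → ℕ × ℕ}
    (ht : ∑ i, tl mu i ≤ a) (ha : a ≤ mu 0) (hN : N = mu 0 - a)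
    (hc : ∀ j, (c j).1 + (c j).2 = d j) (hs : ∑ j, (c j).1 = N)
    {P : MvPolynomial (Fin n × Option (Fin L)) ℂ}
    (hP : P ∈ PL n (Option (Fin L)) (fun x => Option.elim x (N + 1, 2) c) (tl mu)) :
    Sy (n + 1) d (Fz n (Fin L) (a - ∑ i, tl mu i) (fun j => (c j).1) P) ∈
      PG (n + 1) (Fin L) d a mu := by
  obtain ⟨h1, h2, _⟩ := mem_PL.1 hP
  apply Sy_mem
  · exact Fz_HW h1 _ _ (by rw [hs]; omega) (fun i => rfl)
  · have h3 := Fz_col h1 (l := fun x => (Option.elim x (N + 1, 2) c).2) h2
      (a - ∑ i, tl mu i) (fun j => (c j).1)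
    have h4 : (fun x : Option (Option (Fin L)) => Option.elim x a
        (fun x => Option.elim x 2 d)) =
        (fun x => Option.elim x (a - ∑ i, tl mu i + ∑ i, tl mu i)
        (fun x => Option.elim x ((Option.elim (none : Option (Fin L)) (N + 1, 2) c).2)
          (fun j => (c j).1 + (Option.elim (some j) (N + 1, 2) c).2))) := by
      funext x
      rcases x with _ | _ | j
      · exact (Nat.sub_add_cancel ht).symm
      · rfl
      · exact (hc j).symm
    rw [h4]
    exact h3
  · exact zv_Fz _ _ _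

/-- **(B2)** -/
theorem low (n a : ℕ) (mu : Fin (n + 1) → ℕ) (k : Multiset ℕ) (ht : ∑ i, tl mu i ≤ a)
    (ha : a ≤ mu 0) (S : Finset (Multiset (ℕ × ℕ)))
    (hS : ∀ U ∈ S, szs U = k ∧ (U.map Prod.fst).sum = mu 0 - a) :
    ∑ U ∈ S, cc2 n (tl mu) U ≤ n2 (n + 1) a mu k := by
  classical
  set L := k.toList.length with hL
  set N := mu 0 - a with hN
  let d : Fin L → ℕ := fun j => k.toList.get j
  have h1 : ∀ U : S, ∃ c : Fin L → ℕ × ℕ, (∀ j, (c j).1 + (c j).2 = d j) ∧
      (Finset.univ : Finset (Fin L)).val.map c = U.1 :=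
    fun U => exists_lab k U.1 (hS U.1 U.2).1
  choose c hc1 hc2 using h1
  have hsum : ∀ U : S, ∑ j, (c U j).1 = N := by
    intro U
    rw [← (hS U.1 U.2).2, ← hc2 U, Multiset.map_map]
    rfl
  let t := ∑ i, tl mu i
  let T : ∀ U : S, PL n (Option (Fin L)) (fun x => Option.elim x (N + 1, 2) (c U)) (tl mu) →ₗ[ℂ]
      PG (n + 1) (Fin L) d a mu := fun U =>
    ((Sy (n + 1) d) ∘ₗ (Fz n (Fin L) (a - t) (fun j => (c U j).1))).restrict
      (fun P hP => T_mem ht ha hN (hc1 U) (hsum U) hP)
  let Ψ : (∀ U : S, PL n (Option (Fin L)) (fun x => Option.elim x (N + 1, 2) (c U)) (tl mu))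
      →ₗ[ℂ] PG (n + 1) (Fin L) d a mu := ∑ U : S, (T U) ∘ₗ (LinearMap.proj U)
  have hΨ : Function.Injective Ψ := by
    rw [← LinearMap.ker_eq_bot, LinearMap.ker_eq_bot']
    intro f hf
    have h2 : ∑ U : S, Sy (n + 1) d (Fz n (Fin L) (a - t) (fun j => (c U j).1) (f U).1) = 0 := by
      have h3 := congrArg Subtype.val hf
      rw [LinearMap.sum_apply, Submodule.coe_sum] at h3
      exact h3
    have h3 : ∑ U : S, ∑ π ∈ St d, ren (n + 1) (om π) (Q (fun j => (c U j).1) (f U).1) = 0 := by
      have h4 := congrArg (sp n (Fin L)) h2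
      rw [map_zero, map_sum] at h4
      rw [← h4]
      refine Finset.sum_congr rfl fun U _ => ?_
      rw [Sy_apply, map_sum]
      refine Finset.sum_congr rfl fun π _ => ?_
      rw [sp_ren, sp_Fz]
    funext U0
    apply Subtype.ext
    apply MvPolynomial.ext
    intro v
    change coeff v (f U0).1 = coeff v 0
    rw [coeff_zero]
    set w0 := ee n (Fin L) (fun j => (c U0 j).1) + Finsupp.mapDomain (io n (Fin L)) v with hw0
    have hw : ∀ x : Fin L, w0 (0, some (some x)) = (c U0 x).1 := by
      intro x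
      rw [hw0, Finsupp.add_apply, ee_apply, Finsupp.mapDomain_of_notMem_range, add_zero]
      rintro ⟨p, hp⟩
      exact Fin.succ_ne_zero _ (congrArg Prod.fst hp)
    have hsz : ∀ (U : S) (π : Equiv.Perm (Fin L)), π ∈ St d →
        (∀ j, (c U0 (π j)).1 = (c U j).1) → ∀ j, c U0 (π j) = c U j := by
      intro U π hπ h j
      have e1 := hc1 U0 (π j)
      have e2 := hc1 U j
      have e3 := mem_St.1 hπ j
      have e4 := h j
      exact Prod.ext e4 (by omega)
    have h5 := congrArg (coeff w0) h3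
    rw [coeff_zero, coeff_sum, Finset.sum_eq_single U0] at h5
    · rw [coeff_sum] at h5
      have h6 : ∀ π ∈ St d, coeff w0 (ren (n + 1) (om π) (Q (fun j => (c U0 j).1) (f U0).1)) =
          if (∀ j, (c U0 (π j)).1 = (c U0 j).1) then coeff v (f U0).1 else 0 := by
        intro π hπ
        split_ifs with h
        · rw [ren_Q_stab _ _ _ h, hw0, coeff_Q]
          have h7 := (mem_PL.1 (f U0).2).2.2 (Equiv.optionCongr π) (by
            intro x
            rcases x with _ | j
            · rfl
            · exact hsz U0 π hπ h j)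
          exact h7
        · by_contra h8
          apply h
          intro j
          rw [← hw]
          exact ren_Q_mono _ _ π w0 h8 j
      rw [Finset.sum_congr rfl h6, ← Finset.sum_filter, Finset.sum_const, nsmul_eq_mul] at h5
      rcases mul_eq_zero.1 h5 with h7 | h7
      · exfalso
        rw [Nat.cast_eq_zero, Finset.card_eq_zero] at h7
        have h8 : (1 : Equiv.Perm (Fin L)) ∈
            (St d).filter (fun π => ∀ j, (c U0 (π j)).1 = (c U0 j).1) :=
          Finset.mem_filter.2 ⟨mem_St.2 fun j => rfl, fun j => rfl⟩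
        rw [h7] at h8
        exact absurd h8 (Finset.notMem_empty _)
      · exact h7
    · intro U _ hU
      rw [coeff_sum]
      refine Finset.sum_eq_zero fun π hπ => ?_
      by_contra h8
      apply hU
      have h9 : ∀ j, (c U0 (π j)).1 = (c U j).1 := by
        intro j
        rw [← hw]
        exact ren_Q_mono _ _ π w0 h8 j
      have h10 := hsz U π hπ h9
      apply Subtype.ext
      rw [← hc2 U, ← hc2 U0, ← map_equiv π (c U0)]
      exact (Multiset.map_congr rfl fun j _ => h10 j).symm
    · intro h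
      exact absurd (Finset.mem_univ _) h
  have h2 := LinearMap.finrank_le_finrank_of_injective hΨ
  rw [Module.finrank_pi_fintype] at h2
  rw [n2]
  refine le_trans (le_of_eq ?_) h2
  rw [← Finset.sum_coe_sort S (fun U => cc2 n (tl mu) U)]
  exact Finset.sum_congr rfl fun U _ =>
    (finrank_lab n L N (tl mu) (c U) U.1 (hc2 U) (hS U.1 U.2).2).symm

/-- **(B2')** the literal of `O2/Cnt.lean`. -/
theorem prodLow : ProdLow := by
  intro n a mu k _ ht ha _
  classical
  apply low n a mu k ht ha
  intro U hU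
  rw [Finset.mem_filter] at hU
  refine ⟨hU.2, ?_⟩
  have h1 := hU.1
  rw [US, Finset.mem_filter] at h1
  exact h1.2.2.1

end Vale.Agent.P181.O2.H556
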