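import Vale.Agent.P181.O2.H43.T
import Vale.Agent.P181.SZR2a.RowOp
import Vale.Agent.P181.SZR5.Basic

set_option autoImplicit false

/-!
# P181, O2, B2: the letter `z`, the minors of the rows `0, i + 1` with the column `z`
-/

open MvPolynomial

namespace Vale.Agent.P181.O2.H556

open Vale.Agent.P181.T4 (HW mem_HW mem_HW_iff_isWeightedHomogeneous rowW weight_rowW rowOp
  rowOp_apply)
open Vale.Agent.P181.SZR5 (HW_mul ren ren_row)
open Vale.Agent.P181.SZR2a (rowOp_aeval rowOp_aeval_zero)
open Vale.Agent.P181.O2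

/-! ### Weights of substitutions -/

lemma hom_aeval {τ ρ M : Type} [AddCommMonoid M] (w : τ → M) (ω : ρ → M)
    (φ : ρ → MvPolynomial τ ℂ) (hφ : ∀ i, IsWeightedHomogeneous w (φ i) (ω i))
    {P : MvPolynomial ρ ℂ} {m : M} (hP : IsWeightedHomogeneous ω P m) :
    IsWeightedHomogeneous w (aeval φ P) m := by
  rw [P.as_sum, map_sum]
  refine IsWeightedHomogeneous.sum _ _ _ fun v hv => ?_
  have h1 : Finsupp.weight ω v = m := hP (mem_support_iff.1 hv)
  rw [aeval_monomial, algebraMap_eq, ← h1, Finsupp.weight_apply, Finsupp.prod, Finsupp.sum]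
  have h2 := (isWeightedHomogeneous_C w (coeff v P)).mul
    (IsWeightedHomogeneous.prod v.support (fun i => φ i ^ v i) (fun i => v i • ω i)
      fun i _ => (hφ i).pow (v i))
  rw [zero_add] at h2
  exact h2

lemma weight_sum {ρ M : Type} [Fintype ρ] [AddCommMonoid M] (ω : ρ → M) (v : ρ →₀ ℕ) :
    Finsupp.weight ω v = ∑ p, v p • ω p := by
  classical
  rw [Finsupp.weight_apply, Finsupp.sum]
  apply Finset.sum_subset (Finset.subset_univ _)
  intro p _ hp
  rw [Finsupp.notMem_support_iff.1 hp, zero_smul]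

/-- The column weight of a variable. -/
noncomputable def colW (n : ℕ) (σ : Type) [DecidableEq σ] : Fin n × σ → (σ → ℕ) :=
  fun p => Pi.single p.2 1

lemma weight_colW {n : ℕ} {σ : Type} [Fintype σ] [DecidableEq σ] (v : Fin n × σ →₀ ℕ) (j : σ) :
    Finsupp.weight (colW n σ) v j = ∑ i, v (i, j) := by
  rw [weight_sum, Finset.sum_apply, Fintype.sum_prod_type]
  refine Finset.sum_congr rfl fun i _ => ?_
  rw [Finset.sum_eq_single j]
  · simp [colW]
  · intro k _ hk
    simp [colW, Pi.single_eq_of_ne (Ne.symm hk)]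
  · intro h
    exact absurd (Finset.mem_univ _) h

/-! ### The substitution -/

/-- The minors with the column `z`. -/
noncomputable def Mz (n : ℕ) (σ : Type) (p : Fin n × Option σ) :
    MvPolynomial (Fin (n + 1) × Option (Option σ)) ℂ :=
  X (0, none) * X (p.1.succ, some p.2) - X (p.1.succ, none) * X (0, some p.2)

/-- The factor. -/
noncomputable def Kz (n : ℕ) (σ : Type) [Fintype σ] (s : ℕ) (e : σ → ℕ) :
    MvPolynomial (Fin (n + 1) × Option (Option σ)) ℂ :=
  X (0, none) ^ s * ∏ j, X (0, some (some j)) ^ e j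

/-- The map. -/
noncomputable def Fz (n : ℕ) (σ : Type) [Fintype σ] (s : ℕ) (e : σ → ℕ) :
    MvPolynomial (Fin n × Option σ) ℂ →ₗ[ℂ] MvPolynomial (Fin (n + 1) × Option (Option σ)) ℂ :=
  (LinearMap.mulLeft ℂ (Kz n σ s e)) ∘ₗ (aeval (Mz n σ)).toLinearMap

variable {n : ℕ} {σ : Type} [Fintype σ]

lemma Fz_apply (s : ℕ) (e : σ → ℕ) (P : MvPolynomial (Fin n × Option σ) ℂ) :
    Fz n σ s e P = Kz n σ s e * aeval (Mz n σ) P := rfl

/-! ### Row operators -/

lemma rowOp_Mz (s : Fin (n + 1)) (i : Fin n) (p : Fin n × Option σ) :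
    rowOp s i.succ (Mz n σ p) = if p.1 = i then
      X (0, none) * X (s, some p.2) - X (s, none) * X (0, some p.2) else 0 := by
  rw [Mz, map_sub, T4.rowOp_mul, T4.rowOp_mul, T4.rowOp_X, T4.rowOp_X, T4.rowOp_X, T4.rowOp_X]
  simp only [Fin.succ_inj, if_neg (Fin.succ_ne_zero i).symm, mul_zero, zero_mul, add_zero,
    zero_add]
  by_cases hp : p.1 = i
  · simp only [if_pos hp]
  · simp only [if_neg hp, mul_zero, zero_mul, sub_zero]

lemma rowOp_Kz (s : Fin (n + 1)) (i : Fin n) (r : ℕ) (e : σ → ℕ) :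
    rowOp s i.succ (Kz n σ r e) = 0 := by
  classical
  have hX : ∀ c : Option (Option σ),
      rowOp s i.succ (X (0, c) : MvPolynomial (Fin (n + 1) × Option (Option σ)) ℂ) = 0 := by
    intro c
    rw [T4.rowOp_X, if_neg (Fin.succ_ne_zero i).symm]
  have hpow : ∀ (c : Option (Option σ)) (k : ℕ),
      rowOp s i.succ (X (0, c) ^ k : MvPolynomial (Fin (n + 1) × Option (Option σ)) ℂ) = 0 := by
    intro c k
    induction k with
    | zero =>
      rw [pow_zero, rowOp_apply]
      exact Finset.sum_eq_zero fun j _ => by rw [pderiv_one, mul_zero]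
    | succ k ih => rw [pow_succ, T4.rowOp_mul, ih, hX, zero_mul, mul_zero, add_zero]
  have hprod : ∀ t : Finset σ, rowOp s i.succ (∏ j ∈ t, X (0, some (some j)) ^ e j :
      MvPolynomial (Fin (n + 1) × Option (Option σ)) ℂ) = 0 := by
    intro t
    induction t using Finset.induction_on with
    | empty =>
      rw [Finset.prod_empty, rowOp_apply]
      exact Finset.sum_eq_zero fun j _ => by rw [pderiv_one, mul_zero]
    | insert c t hc ih =>
      rw [Finset.prod_insert hc, T4.rowOp_mul, ih, hpow, zero_mul, mul_zero, add_zero]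
  rw [Kz, T4.rowOp_mul, hpow, hprod, mul_zero, zero_mul, add_zero]

lemma rowOp_Fz {mu : Fin n → ℕ} {P : MvPolynomial (Fin n × Option σ) ℂ}
    (hP : P ∈ HW n (Option σ) mu) (r : ℕ) (e : σ → ℕ) (s i : Fin (n + 1)) (hsi : s < i) :
    rowOp s i (Fz n σ r e P) = 0 := by
  obtain ⟨i, rfl⟩ := Fin.exists_succ_eq.2 (Fin.pos_iff_ne_zero.1 ((Fin.zero_le s).trans_lt hsi))
  rw [Fz_apply, T4.rowOp_mul, rowOp_Kz, zero_mul, add_zero]
  revert hsi
  refine Fin.cases ?_ (fun s => ?_) s
  · intro _
    rw [rowOp_aeval_zero, mul_zero]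
    intro p
    rw [rowOp_Mz, sub_self, ite_self]
  · intro hsi
    have h1 : rowOp s.succ i.succ (aeval (Mz n σ) P) = aeval (Mz n σ) (rowOp s i P) := by
      refine rowOp_aeval _ (fun p => ?_) P
      rw [rowOp_Mz, T4.rowOp_X]
      by_cases hp : p.1 = i
      · rw [if_pos hp, if_pos hp, aeval_X, Mz]
      · rw [if_neg hp, if_neg hp, map_zero]
    rw [h1, hP.2 s i (Fin.succ_lt_succ_iff.1 hsi), map_zero, mul_zero]

/-! ### Row and column degrees -/

lemma sum_all {mu : Fin n → ℕ} {P : MvPolynomial (Fin n × Option σ) ℂ}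
    (hP : P ∈ HW n (Option σ) mu) (v : Fin n × Option σ →₀ ℕ) (hv : coeff v P ≠ 0) :
    ∑ p, v p = ∑ i, mu i := by
  rw [Fintype.sum_prod_type]
  exact Finset.sum_congr rfl fun i _ => hP.1 v hv i

lemma row_Mz (p : Fin n × Option σ) :
    IsWeightedHomogeneous (rowW (n + 1) (Option (Option σ))) (Mz n σ p)
      (Pi.single 0 1 + Pi.single p.1.succ 1) := by
  rw [Mz]
  have h1 := (isWeightedHomogeneous_X ℂ (rowW (n + 1) (Option (Option σ)))
    ((0 : Fin (n + 1)), (none : Option (Option σ)))).mul (isWeightedHomogeneous_X ℂ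
      (rowW (n + 1) (Option (Option σ))) (p.1.succ, some p.2))
  have h2 := (isWeightedHomogeneous_X ℂ (rowW (n + 1) (Option (Option σ)))
    (p.1.succ, (none : Option (Option σ)))).mul (isWeightedHomogeneous_X ℂ
      (rowW (n + 1) (Option (Option σ))) ((0 : Fin (n + 1)), some p.2))
  simp only [rowW] at h1 h2
  rw [add_comm (Pi.single p.1.succ 1) (Pi.single 0 1)] at h2
  exact h1.sub h2

lemma row_Kz (r : ℕ) (e : σ → ℕ) :
    IsWeightedHomogeneous (rowW (n + 1) (Option (Option σ))) (Kz n σ r e)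
      (Pi.single 0 (r + ∑ j, e j)) := by
  rw [Kz]
  have h1 := ((isWeightedHomogeneous_X ℂ (rowW (n + 1) (Option (Option σ)))
    ((0 : Fin (n + 1)), (none : Option (Option σ)))).pow r).mul
    (IsWeightedHomogeneous.prod Finset.univ
      (fun j : σ => (X (0, some (some j)) : MvPolynomial (Fin (n + 1) × Option (Option σ)) ℂ) ^ e j)
      (fun j => e j • rowW (n + 1) (Option (Option σ)) (0, some (some j)))
      fun j _ => (isWeightedHomogeneous_X ℂ (rowW (n + 1) (Option (Option σ))) _).pow (e j))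
  have h2 : (Pi.single 0 (r + ∑ j, e j) : Fin (n + 1) → ℕ) =
      r • rowW (n + 1) (Option (Option σ)) (0, none) +
        ∑ j, e j • rowW (n + 1) (Option (Option σ)) (0, some (some j)) := by
    funext i
    simp only [rowW, Pi.add_apply, Pi.smul_apply, Finset.sum_apply, smul_eq_mul]
    refine Fin.cases ?_ (fun i => ?_) i
    · simp
    · simp
  rw [h2]
  exact h1

lemma Fz_HW {tau : Fin n → ℕ} {mu : Fin (n + 1) → ℕ} {P : MvPolynomial (Fin n × Option σ) ℂ}
    (hP : P ∈ HW n (Option σ) tau) (r : ℕ) (e : σ → ℕ) (h0 : mu 0 = r + ∑ j, e j + ∑ i, tau i)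
    (hs : ∀ i : Fin n, mu i.succ = tau i) : Fz n σ r e P ∈ HW (n + 1) (Option (Option σ)) mu := by
  rw [mem_HW_iff_isWeightedHomogeneous]
  refine ⟨?_, fun s i h => rowOp_Fz hP r e s i h⟩
  rw [Fz_apply]
  have h1 : IsWeightedHomogeneous (fun p : Fin n × Option σ =>
      (Pi.single 0 1 + Pi.single p.1.succ 1 : Fin (n + 1) → ℕ)) P
      (Fin.cons (∑ i, tau i) tau : Fin (n + 1) → ℕ) := by
    intro v hv
    rw [weight_sum]
    funext i
    rw [Finset.sum_apply]
    refine Fin.cases ?_ (fun i => ?_) i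
    · rw [Fin.cons_zero, ← sum_all hP v hv]
      refine Finset.sum_congr rfl fun p _ => ?_
      simp
    · rw [Fin.cons_succ, ← hP.1 v hv i, Fintype.sum_prod_type, Finset.sum_eq_single i]
      · refine Finset.sum_congr rfl fun j _ => ?_
        simp
      · intro k _ hk
        refine Finset.sum_eq_zero fun j _ => ?_
        have hk' : (i.succ : Fin (n + 1)) ≠ k.succ := fun h => hk (Fin.succ_injective _ h).symm
        simp [Pi.single_eq_of_ne hk']
      · intro h
        exact absurd (Finset.mem_univ _) h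
  have h2 := (row_Kz (n := n) r e).mul (hom_aeval _ _ _ row_Mz h1)
  have h3 : mu = Pi.single 0 (r + ∑ j, e j) + (Fin.cons (∑ i, tau i) tau : Fin (n + 1) → ℕ) := by
    funext i
    rw [Pi.add_apply]
    refine Fin.cases ?_ (fun i => ?_) i
    · rw [Fin.cons_zero, Pi.single_eq_same, h0]
    · rw [Fin.cons_succ, Pi.single_eq_of_ne (Fin.succ_ne_zero i), zero_add, hs i]
  rw [h3]
  exact h2

variable [DecidableEq σ]

omit [Fintype σ] in
lemma col_Mz (p : Fin n × Option σ) :
    IsWeightedHomogeneous (colW (n + 1) (Option (Option σ))) (Mz n σ p)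
      (Pi.single none 1 + Pi.single (some p.2) 1) := by
  rw [Mz]
  have h1 := (isWeightedHomogeneous_X ℂ (colW (n + 1) (Option (Option σ)))
    ((0 : Fin (n + 1)), (none : Option (Option σ)))).mul (isWeightedHomogeneous_X ℂ
      (colW (n + 1) (Option (Option σ))) (p.1.succ, some p.2))
  have h2 := (isWeightedHomogeneous_X ℂ (colW (n + 1) (Option (Option σ)))
    (p.1.succ, (none : Option (Option σ)))).mul (isWeightedHomogeneous_X ℂ
      (colW (n + 1) (Option (Option σ))) ((0 : Fin (n + 1)), some p.2))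
  simp only [colW] at h1 h2
  exact h1.sub h2

lemma col_Kz (r : ℕ) (e : σ → ℕ) :
    IsWeightedHomogeneous (colW (n + 1) (Option (Option σ))) (Kz n σ r e)
      (fun c => Option.elim c r (fun c => Option.elim c 0 e)) := by
  rw [Kz]
  have h1 := ((isWeightedHomogeneous_X ℂ (colW (n + 1) (Option (Option σ)))
    ((0 : Fin (n + 1)), (none : Option (Option σ)))).pow r).mul
    (IsWeightedHomogeneous.prod Finset.univ
      (fun j : σ => (X (0, some (some j)) : MvPolynomial (Fin (n + 1) × Option (Option σ)) ℂ) ^ e j)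
      (fun j => e j • colW (n + 1) (Option (Option σ)) (0, some (some j)))
      fun j _ => (isWeightedHomogeneous_X ℂ (colW (n + 1) (Option (Option σ))) _).pow (e j))
  have h2 : (fun c : Option (Option σ) => Option.elim c r (fun c => Option.elim c 0 e)) =
      r • colW (n + 1) (Option (Option σ)) (0, none) +
        ∑ j, e j • colW (n + 1) (Option (Option σ)) (0, some (some j)) := by
    funext c
    simp only [colW, Pi.add_apply, Pi.smul_apply, Finset.sum_apply, smul_eq_mul]
    rcases c with _ | _ | c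
    · simp
    · simp
    · simp [Pi.single_apply]
  rw [h2]
  exact h1

/-- The column degrees of `Fz`. -/
lemma Fz_col {tau : Fin n → ℕ} {P : MvPolynomial (Fin n × Option σ) ℂ} {l : Option σ → ℕ}
    (hP : P ∈ HW n (Option σ) tau) (hl : ∀ v, coeff v P ≠ 0 → ∀ j, ∑ i, v (i, j) = l j)
    (r : ℕ) (e : σ → ℕ) :
    IsWeightedHomogeneous (colW (n + 1) (Option (Option σ))) (Fz n σ r e P)
      (fun c => Option.elim c (r + ∑ i, tau i)
        (fun c => Option.elim c (l none) (fun j => e j + l (some j)))) := by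
  rw [Fz_apply]
  have h1 : IsWeightedHomogeneous (fun p : Fin n × Option σ =>
      (Pi.single none 1 + Pi.single (some p.2) 1 : Option (Option σ) → ℕ)) P
      (fun c => Option.elim c (∑ i, tau i) l) := by
    intro v hv
    rw [weight_sum]
    funext c
    rw [Finset.sum_apply]
    rcases c with _ | c
    · rw [Option.elim_none, ← sum_all hP v hv]
      refine Finset.sum_congr rfl fun p _ => ?_
      simp
    · rw [Option.elim_some, ← hl v hv c, Fintype.sum_prod_type]
      refine Finset.sum_congr rfl fun i _ => ?_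
      rw [Finset.sum_eq_single c]
      · simp
      · intro k _ hk
        simp [Ne.symm hk]
      · intro h
        exact absurd (Finset.mem_univ _) h
  have h2 := (col_Kz (n := n) r e).mul (hom_aeval _ _ _ col_Mz h1)
  have h3 : (fun c : Option (Option σ) => Option.elim c (r + ∑ i, tau i)
        (fun c => Option.elim c (l none) (fun j => e j + l (some j)))) =
      (fun c => Option.elim c r (fun c => Option.elim c 0 e)) +
        (fun c => Option.elim c (∑ i, tau i) l) := by
    funext c
    rcases c with _ | _ | c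
    · rfl
    · simp
    · rfl
  rw [h3]
  exact h2

/-! ### The operator `z ∂_v` -/

omit [Fintype σ] [DecidableEq σ] in
lemma zv_mul (f g : MvPolynomial (Fin n × Option (Option σ)) ℂ) :
    zv (f * g) = f * zv g + zv f * g := by
  rw [zv, zv, zv, Finset.mul_sum, Finset.sum_mul, ← Finset.sum_add_distrib]
  refine Finset.sum_congr rfl fun i _ => ?_
  rw [Derivation.leibniz, smul_eq_mul, smul_eq_mul]
  ring

omit [Fintype σ] [DecidableEq σ] in
lemma zv_add (f g : MvPolynomial (Fin n × Option (Option σ)) ℂ) :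
    zv (f + g) = zv f + zv g := by
  rw [zv, zv, zv, ← Finset.sum_add_distrib]
  exact Finset.sum_congr rfl fun i _ => by rw [map_add, mul_add]

omit [Fintype σ] [DecidableEq σ] in
lemma zv_sub (f g : MvPolynomial (Fin n × Option (Option σ)) ℂ) :
    zv (f - g) = zv f - zv g := by
  rw [zv, zv, zv, ← Finset.sum_sub_distrib]
  exact Finset.sum_congr rfl fun i _ => by rw [map_sub, mul_sub]

omit [Fintype σ] [DecidableEq σ] in
lemma zv_C (c : ℂ) : zv (C c : MvPolynomial (Fin n × Option (Option σ)) ℂ) = 0 :=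
  Finset.sum_eq_zero fun i _ => by rw [pderiv_C, mul_zero]

omit [Fintype σ] [DecidableEq σ] in
lemma zv_X_ne (i : Fin n) (c : Option (Option σ)) (hc : c ≠ some none) :
    zv (X (i, c) : MvPolynomial (Fin n × Option (Option σ)) ℂ) = 0 := by
  classical
  refine Finset.sum_eq_zero fun k _ => ?_
  rw [pderiv_X_of_ne, mul_zero]
  intro h
  exact hc (congrArg Prod.snd h)

omit [Fintype σ] [DecidableEq σ] in
lemma zv_X_v (i : Fin n) :
    zv (X (i, some none) : MvPolynomial (Fin n × Option (Option σ)) ℂ) = X (i, none) := by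
  classical
  rw [zv, Finset.sum_eq_single i]
  · rw [pderiv_X_self, mul_one]
  · intro k _ hk
    rw [pderiv_X_of_ne, mul_zero]
    intro h
    exact hk (congrArg Prod.fst h).symm
  · intro h
    exact absurd (Finset.mem_univ _) h

omit [Fintype σ] [DecidableEq σ] in
lemma zv_Mz (p : Fin n × Option σ) : zv (Mz n σ p) = 0 := by
  rw [Mz, zv_sub, zv_mul, zv_mul, zv_X_ne 0 none (by simp), zv_X_ne p.1.succ none (by simp)]
  rcases hp : p.2 with _ | j
  · rw [zv_X_v, zv_X_v]
    ring
  · rw [zv_X_ne _ _ (by simp), zv_X_ne _ _ (by simp)]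
    ring

omit [Fintype σ] [DecidableEq σ] in
lemma zv_aeval (P : MvPolynomial (Fin n × Option σ) ℂ) : zv (aeval (Mz n σ) P) = 0 := by
  induction P using MvPolynomial.induction_on with
  | C c =>
    rw [aeval_C]
    exact zv_C _
  | add f g hf hg => rw [map_add, zv_add, hf, hg, add_zero]
  | mul_X f p hf => rw [map_mul, aeval_X, zv_mul, hf, zv_Mz, zero_mul, mul_zero, add_zero]

omit [DecidableEq σ] in
lemma zv_Kz (r : ℕ) (e : σ → ℕ) : zv (Kz n σ r e) = 0 := by
  classical
  have hpow : ∀ (c : Option (Option σ)), c ≠ some none → ∀ k : ℕ,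
      zv (X (0, c) ^ k : MvPolynomial (Fin (n + 1) × Option (Option σ)) ℂ) = 0 := by
    intro c hc k
    induction k with
    | zero => rw [pow_zero, ← C_1]; exact zv_C _
    | succ k ih => rw [pow_succ, zv_mul, ih, zv_X_ne _ _ hc, zero_mul, mul_zero, add_zero]
  have hprod : ∀ t : Finset σ, zv (∏ j ∈ t, X (0, some (some j)) ^ e j :
      MvPolynomial (Fin (n + 1) × Option (Option σ)) ℂ) = 0 := by
    intro t
    induction t using Finset.induction_on with
    | empty => rw [Finset.prod_empty, ← C_1]; exact zv_C _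
    | insert c t hc ih =>
      rw [Finset.prod_insert hc, zv_mul, ih, hpow _ (by simp), zero_mul, mul_zero, add_zero]
  rw [Kz, zv_mul, hpow _ (by simp), hprod, mul_zero, zero_mul, add_zero]

omit [DecidableEq σ] in
lemma zv_Fz (r : ℕ) (e : σ → ℕ) (P : MvPolynomial (Fin n × Option σ) ℂ) :
    zv (Fz n σ r e P) = 0 := by
  rw [Fz_apply, zv_mul, zv_aeval, zv_Kz, mul_zero, zero_mul, add_zero]

end Vale.Agent.P181.O2.H556
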