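import Vale.Agent.P181.O2.H556.Low1

set_option autoImplicit false

/-!
# P181, O2, B2: symmetrization and the specialization `z = e_0`
-/

open MvPolynomial

namespace Vale.Agent.P181.O2.H556

open Vale.Agent.P181.T4 (HW mem_HW mem_HW_iff_isWeightedHomogeneous rowW weight_rowW rowOp
  rowOp_apply)
open Vale.Agent.P181.SZR5 (ren ren_row ren_X)
open Vale.Agent.P181.O2

variable {n : ℕ} {σ : Type}

/-- The permutation of the columns. -/
abbrev om (π : Equiv.Perm σ) : Option (Option σ) → Option (Option σ) := Option.map (Option.map π)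

lemma om_inj (π : Equiv.Perm σ) : Function.Injective (om π) :=
  Option.map_injective (Option.map_injective π.injective)

lemma pr_inj (m : ℕ) (π : Equiv.Perm σ) :
    Function.Injective (fun p : Fin m × Option (Option σ) => (p.1, om π p.2)) := by
  rintro ⟨a, b⟩ ⟨c, d⟩ h
  have h1 : a = c := congrArg Prod.fst h
  have h2 : om π b = om π d := congrArg Prod.snd h
  rw [h1, om_inj π h2]

lemma ren_ren (m : ℕ) (π ρ : Equiv.Perm σ) (f : MvPolynomial (Fin m × Option (Option σ)) ℂ) :
    ren m (om π) (ren m (om ρ) f) = ren m (om (π * ρ)) f := by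
  rw [ren, ren, rename_rename, ren]
  congr 2
  funext p
  rcases p with ⟨i, _ | _ | c⟩ <;> rfl

lemma zv_ren (m : ℕ) (π : Equiv.Perm σ) (f : MvPolynomial (Fin m × Option (Option σ)) ℂ) :
    zv (ren m (om π) f) = ren m (om π) (zv f) := by
  rw [zv, zv, map_sum]
  refine Finset.sum_congr rfl fun i _ => ?_
  rw [map_mul, ren_X]
  congr 1
  exact pderiv_rename (pr_inj m π) (i, some none) f

variable [Fintype σ] [DecidableEq σ]

/-- The permutations preserving the sizes. -/
def St (d : σ → ℕ) : Finset (Equiv.Perm σ) := Finset.univ.filter fun π => ∀ j, d (π j) = d j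

omit [DecidableEq σ] in
lemma mem_St [DecidableEq σ] {d : σ → ℕ} {π : Equiv.Perm σ} : π ∈ St d ↔ ∀ j, d (π j) = d j := by
  simp [St]

/-- The symmetrization. -/
noncomputable def Sy (m : ℕ) (d : σ → ℕ) :
    MvPolynomial (Fin m × Option (Option σ)) ℂ →ₗ[ℂ]
      MvPolynomial (Fin m × Option (Option σ)) ℂ :=
  ∑ π ∈ St d, (ren m (om π)).toLinearMap

lemma Sy_apply (m : ℕ) (d : σ → ℕ) (f : MvPolynomial (Fin m × Option (Option σ)) ℂ) :
    Sy m d f = ∑ π ∈ St d, ren m (om π) f := by
  rw [Sy, LinearMap.sum_apply]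
  rfl

/-- The symmetrization is in the space. -/
lemma Sy_mem {m a : ℕ} {d : σ → ℕ} {mu : Fin m → ℕ}
    {f : MvPolynomial (Fin m × Option (Option σ)) ℂ} (h1 : f ∈ HW m (Option (Option σ)) mu)
    (h2 : IsWeightedHomogeneous (colW m (Option (Option σ))) f
      (fun c => Option.elim c a (fun c => Option.elim c 2 d))) (h3 : zv f = 0) :
    Sy m d f ∈ PG m σ d a mu := by
  have hcol : ∀ g : MvPolynomial (Fin m × Option (Option σ)) ℂ,
      IsWeightedHomogeneous (colW m (Option (Option σ))) g
      (fun c => Option.elim c a (fun c => Option.elim c 2 d)) →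
      ∀ v, coeff v g ≠ 0 → ∑ i, v (i, none) = a ∧ ∑ i, v (i, some none) = 2 ∧
      ∀ j, ∑ i, v (i, some (some j)) = d j := by
    intro g hg v hv
    have h4 := hg hv
    refine ⟨?_, ?_, fun j => ?_⟩
    · rw [← weight_colW v none, h4]; rfl
    · rw [← weight_colW v (some none), h4]; rfl
    · rw [← weight_colW v (some (some j)), h4]; rfl
  refine ⟨?_, ?_, ?_, ?_⟩
  · rw [Sy_apply]
    exact Submodule.sum_mem _ fun π _ => ren_row h1
  · apply hcol
    rw [Sy_apply]
    refine IsWeightedHomogeneous.sum _ _ _ fun π hπ => ?_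
    have hπ' := mem_St.1 hπ
    intro v hv
    obtain ⟨u, rfl, hu⟩ := coeff_rename_ne_zero _ _ _ hv
    have h4 := h2 hu
    rw [← h4]
    have key : ∀ c : Option (Option σ),
        ∑ i, (Finsupp.mapDomain (fun p : Fin m × Option (Option σ) => (p.1, om π p.2)) u)
          (i, om π c) = ∑ i, u (i, c) := by
      intro c
      exact Finset.sum_congr rfl fun i _ => Finsupp.mapDomain_apply (pr_inj m π) u (i, c)
    funext c
    rw [weight_colW, h4]
    rcases c with _ | _ | c
    · have h5 := key none
      rw [← weight_colW u none, h4] at h5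
      exact h5
    · have h5 := key (some none)
      rw [← weight_colW u (some none), h4] at h5
      exact h5
    · have h5 := key (some (some (π.symm c)))
      rw [← weight_colW u (some (some (π.symm c))), h4] at h5
      have h6 : om π (some (some (π.symm c))) = some (some c) := by
        simp [om]
      rw [h6] at h5
      rw [h5]
      have h7 := hπ' (π.symm c)
      rw [Equiv.apply_symm_apply] at h7
      exact h7.symm
  · intro e he
    change ren m (om e) (Sy m d f) = Sy m d f
    rw [Sy_apply, map_sum]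
    refine Finset.sum_nbij' (fun π => e * π) (fun π => e⁻¹ * π) ?_ ?_ ?_ ?_ ?_
    · intro π hπ
      rw [mem_St] at hπ ⊢
      intro j
      rw [Equiv.Perm.mul_apply, he, hπ]
    · intro π hπ
      rw [mem_St] at hπ ⊢
      intro j
      have h5 : e (e⁻¹ (π j)) = π j := e.apply_symm_apply (π j)
      rw [Equiv.Perm.mul_apply, ← hπ j, ← he (e⁻¹ (π j)), h5]
    · intro π _
      exact inv_mul_cancel_left e π
    · intro π _
      exact mul_inv_cancel_left e π
    · intro π _
      exact ren_ren m e π f
  · have h4 : ∀ s : Finset (Equiv.Perm σ), zv (∑ π ∈ s, ren m (om π) f) = 0 := by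
      intro s
      induction s using Finset.induction_on with
      | empty =>
        rw [Finset.sum_empty]
        exact Finset.sum_eq_zero fun i _ => by rw [map_zero, mul_zero]
      | insert π s hπ ih =>
        rw [Finset.sum_insert hπ, zv_add, ih, zv_ren, h3, map_zero, add_zero]
    rw [Sy_apply]
    exact h4 _

/-! ### The specialization -/

/-- The image of a variable: `z = e_0`. -/
noncomputable def spv (n : ℕ) (σ : Type) : Fin (n + 1) × Option (Option σ) →
    MvPolynomial (Fin (n + 1) × Option (Option σ)) ℂ :=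
  fun p => Option.elim p.2 (if p.1 = 0 then 1 else 0) (fun c => X (p.1, some c))

/-- The specialization. -/
noncomputable def sp (n : ℕ) (σ : Type) : MvPolynomial (Fin (n + 1) × Option (Option σ)) ℂ →ₐ[ℂ]
    MvPolynomial (Fin (n + 1) × Option (Option σ)) ℂ := aeval (spv n σ)

/-- The columns of the tail. -/
def io (n : ℕ) (σ : Type) (p : Fin n × Option σ) : Fin (n + 1) × Option (Option σ) :=
  (p.1.succ, some p.2)

omit [Fintype σ] [DecidableEq σ] in
lemma io_inj : Function.Injective (io n σ) := by
  rintro ⟨a, b⟩ ⟨c, d⟩ h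
  have h1 : a.succ = c.succ := congrArg Prod.fst h
  have h2 : some b = some d := congrArg Prod.snd h
  rw [Fin.succ_injective _ h1, Option.some_injective _ h2]

/-- The exponents of the first row. -/
noncomputable def ee (n : ℕ) (σ : Type) [Fintype σ] (e : σ → ℕ) :
    Fin (n + 1) × Option (Option σ) →₀ ℕ :=
  ∑ j, Finsupp.single (0, some (some j)) (e j)

/-- The normal form. -/
noncomputable def Q (e : σ → ℕ) (P : MvPolynomial (Fin n × Option σ) ℂ) :
    MvPolynomial (Fin (n + 1) × Option (Option σ)) ℂ :=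
  monomial (ee n σ e) 1 * rename (io n σ) P

omit [DecidableEq σ] in
lemma prod_X (e : σ → ℕ) : (∏ j, X (0, some (some j)) ^ e j :
    MvPolynomial (Fin (n + 1) × Option (Option σ)) ℂ) = monomial (ee n σ e) 1 := by
  rw [ee, monomial_sum_one]
  exact Finset.prod_congr rfl fun j _ => X_pow_eq_monomial

omit [DecidableEq σ] in
lemma sp_Fz (r : ℕ) (e : σ → ℕ) (P : MvPolynomial (Fin n × Option σ) ℂ) :
    sp n σ (Fz n σ r e P) = Q e P := by
  have h0 : ∀ p : Fin n × Option σ, sp n σ (Mz n σ p) = X (io n σ p) := by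
    intro p
    rw [Mz, map_sub, map_mul, map_mul, sp, aeval_X, aeval_X, aeval_X, aeval_X, spv, spv, spv, spv]
    simp [io]
  have h1 : sp n σ (aeval (Mz n σ) P) = rename (io n σ) P := by
    have h2 : (sp n σ).comp (aeval (Mz n σ)) = rename (io n σ) := by
      apply algHom_ext
      intro p
      rw [AlgHom.comp_apply, aeval_X, h0, rename_X]
    rw [← h2]
    rfl
  rw [Fz_apply, map_mul, h1, Q, Kz, map_mul, map_pow, map_prod]
  congr 1
  rw [← prod_X]
  have h3 : sp n σ (X (0, none)) = 1 := by
    rw [sp, aeval_X, spv]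
    simp
  rw [h3, one_pow, one_mul]
  refine Finset.prod_congr rfl fun j _ => ?_
  rw [map_pow, sp, aeval_X, spv]
  rfl

omit [Fintype σ] [DecidableEq σ] in
lemma sp_ren (π : Equiv.Perm σ) (f : MvPolynomial (Fin (n + 1) × Option (Option σ)) ℂ) :
    sp n σ (ren (n + 1) (om π) f) = ren (n + 1) (om π) (sp n σ f) := by
  have h : (sp n σ).comp (ren (n + 1) (om π)) = (ren (n + 1) (om π)).comp (sp n σ) := by
    apply algHom_ext
    intro p
    rw [AlgHom.comp_apply, AlgHom.comp_apply, ren_X, sp, aeval_X, aeval_X, spv, spv]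
    rcases p with ⟨i, _ | c⟩
    · by_cases hi : i = 0
      · simp [om, hi]
      · simp [om, hi]
    · simp [om, ren_X]
  exact DFunLike.congr_fun h f

lemma ee_apply (e : σ → ℕ) (j : σ) : ee n σ e (0, some (some j)) = e j := by
  rw [ee, Finsupp.finsetSum_apply, Finset.sum_eq_single j]
  · rw [Finsupp.single_eq_same]
  · intro k _ hk
    rw [Finsupp.single_apply, if_neg]
    intro h
    have h2 := congrArg Prod.snd h
    simp only [Option.some.injEq] at h2
    exact hk h2
  · intro h
    exact absurd (Finset.mem_univ _) h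

lemma ee_perm (e : σ → ℕ) (π : Equiv.Perm σ) :
    Finsupp.mapDomain (fun p : Fin (n + 1) × Option (Option σ) => (p.1, om π p.2)) (ee n σ e) =
      ee n σ (fun j => e (π.symm j)) := by
  rw [ee, Finsupp.mapDomain_finsetSum, ee]
  rw [← Equiv.sum_comp π (fun j => Finsupp.single ((0 : Fin (n + 1)), some (some j))
    (e (π.symm j)))]
  refine Finset.sum_congr rfl fun j _ => ?_
  rw [Finsupp.mapDomain_single, Equiv.symm_apply_apply]
  rfl

/-- The coefficients of the normal form. -/
lemma coeff_Q (e : σ → ℕ) (P : MvPolynomial (Fin n × Option σ) ℂ) (v : Fin n × Option σ →₀ ℕ) :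
    coeff (ee n σ e + Finsupp.mapDomain (io n σ) v) (Q e P) = coeff v P := by
  rw [Q, coeff_monomial_mul, one_mul, coeff_rename_mapDomain _ io_inj]

/-- The monomials of the normal form. -/
lemma Q_mono (e : σ → ℕ) (P : MvPolynomial (Fin n × Option σ) ℂ)
    (w : Fin (n + 1) × Option (Option σ) →₀ ℕ) (hw : coeff w (Q e P) ≠ 0) :
    ∀ j, w (0, some (some j)) = e j := by
  classical
  intro j
  rw [Q, coeff_monomial_mul'] at hw
  split_ifs at hw with h
  · rw [one_mul] at hw
    obtain ⟨v, hv, _⟩ := coeff_rename_ne_zero _ _ _ hw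
    have h1 : w = ee n σ e + Finsupp.mapDomain (io n σ) v := by
      rw [hv]
      exact (add_tsub_cancel_of_le h).symm
    rw [h1, Finsupp.add_apply, ee_apply, Finsupp.mapDomain_of_notMem_range, add_zero]
    rintro ⟨p, hp⟩
    exact Fin.succ_ne_zero _ (congrArg Prod.fst hp)
  · exact absurd rfl hw

/-- The row `0` exponents of a permuted normal form. -/
lemma ren_Q_mono (e : σ → ℕ) (P : MvPolynomial (Fin n × Option σ) ℂ) (π : Equiv.Perm σ)
    (w : Fin (n + 1) × Option (Option σ) →₀ ℕ)
    (hw : coeff w (ren (n + 1) (om π) (Q e P)) ≠ 0) :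
    ∀ j, w (0, some (some (π j))) = e j := by
  intro j
  obtain ⟨u, rfl, hu⟩ := coeff_rename_ne_zero _ _ _ hw
  rw [← Q_mono e P u hu j]
  exact Finsupp.mapDomain_apply (pr_inj (n + 1) π) u (0, some (some j))

/-- Permutations preserving the labels. -/
lemma ren_Q_stab (e : σ → ℕ) (P : MvPolynomial (Fin n × Option σ) ℂ) (π : Equiv.Perm σ)
    (he : ∀ j, e (π j) = e j)
    (hP : rename (fun p : Fin n × Option σ => (p.1, Option.map π p.2)) P = P) :
    ren (n + 1) (om π) (Q e P) = Q e P := by
  rw [Q, map_mul]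
  congr 1
  · rw [ren, rename_monomial, ee_perm]
    have h1 : (fun j => e (π.symm j)) = e := by
      funext j
      have := he (π.symm j)
      rw [Equiv.apply_symm_apply] at this
      exact this.symm
    rw [h1]
  · conv_rhs => rw [← hP]
    rw [ren, rename_rename, rename_rename]
    rfl

end Vale.Agent.P181.O2.H556
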